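import Vale.Agent.P042.Upper.Increment.Windows

/-!
The mass of the balanced function near a rational is at most its mass in short windows.
-/

open Finset

namespace Vale.Agent.P042.Upper

noncomputable section

/-- The sum of the balanced function, twisted by `a / q`, over the window after `v`. -/
def winSum (A : Finset ℤ) (α : ℝ) (N W : ℕ) (θ : ℝ) (v : ℤ) : ℂ :=
  ∑ n ∈ Icc 1 (N : ℤ) ∩ Ioc v (v + W), (bal A α n : ℂ) * ee (-((n : ℝ) * θ))

/-- The transform of the balanced function at `ξ / 2N`. -/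
def balHat (A : Finset ℤ) (α : ℝ) (N ξ : ℕ) : ℂ :=
  ∑ n ∈ Icc 1 (N : ℤ), (bal A α n : ℂ) * ee (-((n : ℝ) * ξ / (2 * N : ℕ)))

open scoped Classical in
theorem arc_mass (A : Finset ℤ) (α : ℝ) {N W : ℕ} (hW : 0 < W) (hWN : W ≤ N) (θ : ℝ) {B : ℝ}
    (hWB : (W : ℝ) * B ≤ 1 / 20) :
    ∑ ξ ∈ range (2 * N), (if ∃ z : ℤ, |(ξ : ℝ) / (2 * N : ℕ) - θ - z| ≤ B
        then ‖balHat A α N ξ‖ ^ 2 else 0) ≤
      4 / (W : ℝ) ^ 2 * ((2 * N : ℕ) * ∑ v ∈ Ico (-(W : ℤ)) N, ‖winSum A α N W θ v‖ ^ 2) := by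
  set M := 2 * N with hM
  have hM0 : 0 < M := by omega
  set c : ℤ → ℂ := fun v => ee (((v : ℝ) + 1) * θ) * winSum A α N W θ v with hc
  set K : ℕ → ℂ := fun ξ => ∑ t ∈ range W, ee ((t : ℝ) * ((ξ : ℝ) / M - θ))
  have hFK : ∀ ξ : ℕ, balHat A α N ξ * K ξ =
      ee (-((ξ : ℝ) / M)) * ∑ v ∈ Ico (-(W : ℤ)) N, c v * ee (-((v : ℝ) * ξ / M)) := by
    intro ξ
    simp only [hc, winSum, balHat, K, mul_sum, sum_mul]
    rw [← hM]
    calc ∑ t ∈ range W, ∑ x ∈ Icc 1 (N : ℤ),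
          (bal A α x : ℂ) * ee (-((x : ℝ) * ξ / M)) * ee ((t : ℝ) * ((ξ : ℝ) / M - θ))
        = ∑ x ∈ Icc 1 (N : ℤ), ∑ t ∈ range W,
          (bal A α x : ℂ) * ee (-((x : ℝ) * ξ / M)) * ee ((t : ℝ) * ((ξ : ℝ) / M - θ)) := sum_comm
      _ = ∑ x ∈ Icc 1 (N : ℤ), ∑ v ∈ Ico (x - W) x, ee (-((ξ : ℝ) / M)) *
          (ee (((v : ℝ) + 1) * θ) * ((bal A α x : ℂ) * ee (-((x : ℝ) * θ))) *
            ee (-((v : ℝ) * ξ / M))) := by
        refine sum_congr rfl fun x _ => ?_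
        refine sum_nbij' (fun t => x - t - 1) (fun v => (x - v - 1).toNat) ?_ ?_ ?_ ?_ ?_
        · intro t ht; simp only [mem_range, mem_Ico] at *; omega
        · intro v hv; simp only [mem_range, mem_Ico] at *; omega
        · intro t ht; simp only [mem_range] at *; omega
        · intro v hv; simp only [mem_Ico] at *; omega
        · intro t ht
          rw [show ee (-((ξ : ℝ) / M)) * (ee ((((x - t - 1 : ℤ) : ℝ) + 1) * θ) *
              ((bal A α x : ℂ) * ee (-((x : ℝ) * θ))) * ee (-(((x - t - 1 : ℤ) : ℝ) * ξ / M)))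
            = (bal A α x : ℂ) * (ee (-((ξ : ℝ) / M)) * ee ((((x - t - 1 : ℤ) : ℝ) + 1) * θ) *
              ee (-((x : ℝ) * θ)) * ee (-(((x - t - 1 : ℤ) : ℝ) * ξ / M))) by ring,
            mul_assoc]
          congr 1
          simp only [← ee_add]
          congr 1
          push_cast
          ring
      _ = ∑ v ∈ Ico (-(W : ℤ)) N, ∑ x ∈ Icc 1 (N : ℤ) ∩ Ioc v (v + W), ee (-((ξ : ℝ) / M)) *
          (ee (((v : ℝ) + 1) * θ) * ((bal A α x : ℂ) * ee (-((x : ℝ) * θ))) *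
            ee (-((v : ℝ) * ξ / M))) := by
        refine Finset.sum_comm' fun x v => ?_
        simp only [mem_inter, mem_Icc, mem_Ioc, mem_Ico]
        omega
      _ = _ := rfl
  have hK : ∀ ξ : ℕ, (∃ z : ℤ, |(ξ : ℝ) / M - θ - z| ≤ B) → (W : ℝ) / 2 ≤ ‖K ξ‖ := by
    rintro ξ ⟨z, hz⟩
    set β := (ξ : ℝ) / M - θ - z
    have ht : ∀ t ∈ range W, ‖ee ((t : ℝ) * ((ξ : ℝ) / M - θ)) - 1‖ ≤ 1 / 2 := by
      intro t ht
      rw [show (t : ℝ) * ((ξ : ℝ) / M - θ) = (t : ℝ) * β + ((t * z : ℤ) : ℝ) by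
        simp only [β]; push_cast; ring, ee_add_int]
      refine (norm_ee_sub_one_le _).trans ?_
      have htW : (t : ℝ) ≤ W := by exact_mod_cast (mem_range.1 ht).le
      have hB : 0 ≤ B := (abs_nonneg _).trans hz
      have : |(t : ℝ) * β| ≤ 1 / 20 := by
        rw [abs_mul, Nat.abs_cast]
        exact (mul_le_mul htW hz (abs_nonneg _) (Nat.cast_nonneg _)).trans hWB
      nlinarith [Real.pi_le_four, Real.pi_pos, abs_nonneg ((t : ℝ) * β)]
    have hdiff : ‖K ξ - (W : ℂ)‖ ≤ (W : ℝ) / 2 := by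
      rw [show K ξ - (W : ℂ) = ∑ t ∈ range W, (ee ((t : ℝ) * ((ξ : ℝ) / M - θ)) - 1) by
        simp [K, sum_sub_distrib]]
      refine (norm_sum_le _ _).trans ((sum_le_sum ht).trans_eq ?_)
      simp
      ring
    have := norm_sub_norm_le ((W : ℂ)) (K ξ)
    rw [norm_sub_rev, Complex.norm_natCast] at this
    linarith
  have hWr : (0 : ℝ) < W := by exact_mod_cast hW
  calc _ ≤ ∑ ξ ∈ range M, 4 / (W : ℝ) ^ 2 * ‖balHat A α N ξ * K ξ‖ ^ 2 := by
        refine sum_le_sum fun ξ _ => ?_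
        split_ifs with h
        · rw [norm_mul, mul_pow]
          have h2 : ((W : ℝ) / 2) ^ 2 ≤ ‖K ξ‖ ^ 2 := pow_le_pow_left₀ (by positivity) (hK ξ h) 2
          calc ‖balHat A α N ξ‖ ^ 2 =
                4 / (W : ℝ) ^ 2 * (‖balHat A α N ξ‖ ^ 2 * ((W : ℝ) / 2) ^ 2) := by field_simp; ring
            _ ≤ _ := by gcongr
        · positivity
    _ = 4 / (W : ℝ) ^ 2 * ∑ ξ ∈ range M,
          ‖∑ v ∈ Ico (-(W : ℤ)) N, c v * ee (-((v : ℝ) * ξ / M))‖ ^ 2 := by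
        rw [mul_sum]
        refine sum_congr rfl fun ξ _ => ?_
        rw [hFK, norm_mul, norm_ee, one_mul]
    _ = _ := by
        rw [parseval_interval hM0 _ c]
        · simp [hc, norm_ee]
        · intro u hu v hv
          simp only [mem_Ico] at hu hv
          rw [abs_lt]
          omega

/-- An inner window sees only the Fourier coefficient of `A` and a short geometric sum. -/
theorem winSum_sq_le (A : Finset ℤ) {α : ℝ} (hα0 : 0 ≤ α) (hα1 : α ≤ 1) {N W q a : ℕ}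
    (hW : 0 < W) (hq : 0 < q) (ha : ¬q ∣ a) {v : ℤ} (hv0 : 0 ≤ v) (hv : v + W ≤ N) :
    ‖winSum A α N W ((a : ℝ) / q) v‖ ^ 2 ≤
      2 * (W : ℝ) ^ 2 * ‖fhat (A ∩ Ioc v (v + W)) W ((a : ℝ) / q)‖ ^ 2 + 2 * (q : ℝ) ^ 2 := by
  have hI : Icc 1 (N : ℤ) ∩ Ioc v (v + W) = Ioc v (v + W) :=
    inter_eq_right.2 fun n hn => by simp only [mem_Ioc, mem_Icc] at *; omega
  have hWr : (W : ℂ) ≠ 0 := by exact_mod_cast hW.ne'
  have h : winSum A α N W ((a : ℝ) / q) v = starRingEnd ℂ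
      ((W : ℂ) * fhat (A ∩ Ioc v (v + W)) W ((a : ℝ) / q) -
        (α : ℂ) * ∑ n ∈ Ioc v (v + W), ee ((n : ℝ) * ((a : ℝ) / q))) := by
    rw [fhat, Complex.ofReal_natCast, mul_div_cancel₀ _ hWr, map_sub, map_mul, map_sum, map_sum,
      Complex.conj_ofReal, winSum, hI]
    simp only [← ee_neg, bal, Complex.ofReal_sub, sub_mul, sum_sub_distrib, mul_sum]
    congr 1
    rw [inter_comm, ← filter_mem_eq_inter, sum_filter]
    refine sum_congr rfl fun n _ => ?_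
    split_ifs <;> simp
  rw [h, RCLike.norm_conj]
  refine (pow_le_pow_left₀ (norm_nonneg _) (norm_sub_le _ _) 2).trans ?_
  have h1 : ‖(α : ℂ) * ∑ n ∈ Ioc v (v + W), ee ((n : ℝ) * ((a : ℝ) / q))‖ ≤ q := by
    rw [norm_mul, Complex.norm_real, Real.norm_eq_abs, abs_of_nonneg hα0]
    calc α * _ ≤ 1 * (q : ℝ) := mul_le_mul hα1 (norm_sum_Ioc_ee_le hq ha v W) (norm_nonneg _)
          zero_le_one
      _ = _ := one_mul _
  rw [norm_mul ((W : ℂ)), Complex.norm_natCast]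
  set x := ‖fhat (A ∩ Ioc v (v + W)) W ((a : ℝ) / q)‖
  set y := ‖(α : ℂ) * ∑ n ∈ Ioc v (v + W), ee ((n : ℝ) * ((a : ℝ) / q))‖
  have hy : 0 ≤ y := norm_nonneg _
  nlinarith [sq_nonneg ((W : ℝ) * x - y), mul_self_le_mul_self hy h1]

/-- An inner window at frequency zero. -/
theorem winSum_zero (A : Finset ℤ) (α : ℝ) {N W : ℕ} (hW : 0 < W) {v : ℤ} (hv0 : 0 ≤ v)
    (hv : v + W ≤ N) :
    ‖winSum A α N W 0 v‖ ^ 2 =
      (W : ℝ) ^ 2 * (((A ∩ Ioc v (v + W)).card : ℝ) / W - α) ^ 2 := by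
  have hI : Icc 1 (N : ℤ) ∩ Ioc v (v + W) = Ioc v (v + W) :=
    inter_eq_right.2 fun n hn => by simp only [mem_Ioc, mem_Icc] at *; omega
  have h : winSum A α N W 0 v = ((((A ∩ Ioc v (v + W)).card : ℝ) - α * W : ℝ) : ℂ) := by
    rw [winSum, hI]
    simp only [mul_zero, neg_zero, ee_zero, mul_one, bal, ← Complex.ofReal_sum, sum_sub_distrib,
      sum_indicator]
    congr 1
    simp [mul_comm]
  rw [h, Complex.norm_real, Real.norm_eq_abs, sq_abs]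
  have : (W : ℝ) ≠ 0 := by exact_mod_cast hW.ne'
  field_simp

theorem norm_winSum_le (A : Finset ℤ) {α : ℝ} (hα0 : 0 ≤ α) (hα1 : α ≤ 1) (N W : ℕ) (θ : ℝ)
    (v : ℤ) : ‖winSum A α N W θ v‖ ≤ W := by
  refine (norm_sum_le _ _).trans ?_
  calc ∑ n ∈ Icc 1 (N : ℤ) ∩ Ioc v (v + W), ‖(bal A α n : ℂ) * ee (-((n : ℝ) * θ))‖
      ≤ ∑ n ∈ Icc 1 (N : ℤ) ∩ Ioc v (v + W), (1 : ℝ) := sum_le_sum fun n _ => by
        rw [norm_mul, norm_ee, mul_one, Complex.norm_real, Real.norm_eq_abs, abs_le, bal]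
        split_ifs <;> constructor <;> linarith
    _ = ((Icc 1 (N : ℤ) ∩ Ioc v (v + W)).card : ℝ) := by simp
    _ ≤ ((Ioc v (v + (W : ℤ))).card : ℝ) := Nat.cast_le.2 (card_le_card inter_subset_right)
    _ = W := by simp

end

end Vale.Agent.P042.Upper
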