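import Vale.Agent.P042.Upper.Basic

/-!
Elementary Fourier analysis for the density increment: orthogonality, Parseval, windows.
-/

open Finset

namespace Vale.Agent.P042.Upper

noncomputable section

theorem ee_mul_nat (t : ℝ) (n : ℕ) : ee ((n : ℝ) * t) = ee t ^ n := by
  induction n with
  | zero => simp [ee_zero]
  | succ n ih => rw [pow_succ, ← ih, ← ee_add]; congr 1; push_cast; ring

theorem ee_eq_one_iff {t : ℝ} : ee t = 1 ↔ ∃ z : ℤ, t = z := by
  rw [ee, Complex.exp_eq_one_iff]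
  refine exists_congr fun z => ?_
  have hne : (2 * (Real.pi : ℂ) * Complex.I) ≠ 0 := by simp [Real.pi_ne_zero]
  constructor
  · intro h
    have : ((t : ℂ)) * (2 * Real.pi * Complex.I) = ((z : ℝ) : ℂ) * (2 * Real.pi * Complex.I) := by
      push_cast
      linear_combination h
    exact_mod_cast mul_right_cancel₀ hne this
  · rintro rfl
    push_cast
    ring

theorem sum_range_ee {M : ℕ} (hM : 0 < M) (z : ℤ) :
    ∑ ξ ∈ range M, ee ((z : ℝ) * ξ / M) = if (M : ℤ) ∣ z then (M : ℂ) else 0 := by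
  have hMr : (M : ℝ) ≠ 0 := by exact_mod_cast hM.ne'
  have h1 : ∀ ξ : ℕ, ee ((z : ℝ) * ξ / M) = ee ((z : ℝ) / M) ^ ξ := fun ξ => by
    rw [← ee_mul_nat]; congr 1; ring
  simp only [h1]
  split_ifs with h
  · have : ee ((z : ℝ) / M) = 1 := by
      obtain ⟨w, rfl⟩ := h
      rw [ee_eq_one_iff]
      exact ⟨w, by push_cast; field_simp⟩
    simp [this]
  · have hne : ee ((z : ℝ) / M) ≠ 1 := by
      rw [Ne, ee_eq_one_iff]
      rintro ⟨w, hw⟩
      refine h ⟨w, ?_⟩
      have : (z : ℝ) = (M : ℝ) * w := by rw [← hw]; field_simp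
      exact_mod_cast this
    have hpow : ee ((z : ℝ) / M) ^ M = 1 := by
      rw [← ee_mul_nat, ee_eq_one_iff]
      exact ⟨z, by field_simp⟩
    rw [geom_sum_eq hne, hpow, sub_self, zero_div]

/-- Expanding the square of a trigonometric sum. -/
theorem normSq_sum_ee {ι : Type*} (s : Finset ι) (c : ι → ℝ) (φ : ι → ℝ) :
    ((‖∑ i ∈ s, (c i : ℂ) * ee (φ i)‖ ^ 2 : ℝ) : ℂ) =
      ∑ i ∈ s, ∑ j ∈ s, ((c i * c j : ℝ) : ℂ) * ee (φ i - φ j) := by
  rw [Complex.ofReal_pow, ← Complex.mul_conj', map_sum, sum_mul_sum]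
  refine sum_congr rfl fun i _ => sum_congr rfl fun j _ => ?_
  rw [map_mul, Complex.conj_ofReal, ← ee_neg, sub_eq_add_neg, ee_add]
  push_cast
  ring

/-- Parseval for frequencies `ξ / M` and an interval of length at most `M`. -/
theorem parseval_interval {M : ℕ} (hM : 0 < M) {s : Finset ℤ}
    (hs : ∀ u ∈ s, ∀ v ∈ s, |u - v| < (M : ℤ)) (c : ℤ → ℂ) :
    ∑ ξ ∈ range M, ‖∑ u ∈ s, c u * ee (-((u : ℝ) * ξ / M))‖ ^ 2 =
      M * ∑ u ∈ s, ‖c u‖ ^ 2 := by
  have key : ∑ ξ ∈ range M, ((‖∑ u ∈ s, c u * ee (-((u : ℝ) * ξ / M))‖ ^ 2 : ℝ) : ℂ) =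
      (((M : ℝ) * ∑ u ∈ s, ‖c u‖ ^ 2 : ℝ) : ℂ) := by
    simp only [Complex.ofReal_pow, ← Complex.mul_conj', map_sum, sum_mul_sum]
    rw [sum_comm]
    push_cast
    rw [mul_sum]
    refine sum_congr rfl fun u hu => ?_
    rw [sum_comm, sum_eq_single u]
    · simp only [map_mul, ← ee_neg, neg_neg]
      rw [← Complex.mul_conj']
      have : ∀ ξ ∈ range M, c u * ee (-((u : ℝ) * ξ / M)) *
          ((starRingEnd ℂ) (c u) * ee ((u : ℝ) * ξ / M)) = c u * (starRingEnd ℂ) (c u) := by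
        intro ξ _
        have : ee (-((u : ℝ) * ξ / M)) * ee ((u : ℝ) * ξ / M) = 1 := by
          rw [← ee_add, neg_add_cancel, ee_zero]
        linear_combination (c u * (starRingEnd ℂ) (c u)) * this
      rw [sum_congr rfl this]
      simp
    · intro v hv hne
      simp only [map_mul, ← ee_neg, neg_neg]
      have : ∀ ξ ∈ range M, c u * ee (-((u : ℝ) * ξ / M)) *
          ((starRingEnd ℂ) (c v) * ee ((v : ℝ) * ξ / M)) =
            c u * (starRingEnd ℂ) (c v) * ee (((v - u : ℤ) : ℝ) * ξ / M) := by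
        intro ξ _
        rw [show ((v - u : ℤ) : ℝ) * ξ / M = -((u : ℝ) * ξ / M) + (v : ℝ) * ξ / M by
          push_cast; ring, ee_add]
        ring
      rw [sum_congr rfl this, ← mul_sum, sum_range_ee hM, if_neg, mul_zero]
      intro hd
      exact hne (sub_eq_zero.1 (Int.eq_zero_of_abs_lt_dvd hd (hs v hv u hu)))
    · exact fun h => absurd hu h
  exact_mod_cast key

/-- A block of a nontrivial additive character has sum at most its order. -/
theorem norm_sum_Ioc_ee_le {q : ℕ} (hq : 0 < q) {a : ℕ} (ha : ¬q ∣ a) (u : ℤ) (W : ℕ) :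
    ‖∑ n ∈ Ioc u (u + W), ee ((n : ℝ) * ((a : ℝ) / q))‖ ≤ q := by
  set z := ee ((a : ℝ) / q)
  have hqr : (q : ℝ) ≠ 0 := by exact_mod_cast hq.ne'
  have hz1 : z ≠ 1 := by
    rw [Ne, ee_eq_one_iff]
    rintro ⟨w, hw⟩
    have : ((a : ℤ) : ℝ) = ((q : ℤ) : ℝ) * w := by push_cast; rw [← hw]; field_simp
    exact ha (by exact_mod_cast Dvd.intro w (by exact_mod_cast this.symm : (q : ℤ) * w = a))
  have hzq : z ^ q = 1 := by
    rw [← ee_mul_nat, ee_eq_one_iff]
    exact ⟨a, by push_cast; field_simp⟩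
  have hsum : ∑ n ∈ Ioc u (u + W), ee ((n : ℝ) * ((a : ℝ) / q)) =
      ee (((u + 1 : ℤ) : ℝ) * ((a : ℝ) / q)) * ∑ i ∈ range W, z ^ i := by
    rw [mul_sum]
    refine sum_nbij' (fun n => (n - u - 1).toNat) (fun i => u + 1 + i) ?_ ?_ ?_ ?_ ?_
    · intro n hn; simp only [mem_Ioc, mem_range] at *; omega
    · intro i hi; simp only [mem_Ioc, mem_range] at *; omega
    · intro n hn; simp only [mem_Ioc] at *; omega
    · intro i hi; simp only [mem_range] at *; omega
    · intro n hn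
      simp only [mem_Ioc] at hn
      rw [← ee_mul_nat, ← ee_add]
      congr 1
      have : (((n - u - 1).toNat : ℕ) : ℝ) = (n : ℝ) - u - 1 := by
        have h := Int.toNat_of_nonneg (show 0 ≤ n - u - 1 by omega)
        exact_mod_cast h
      rw [this]; push_cast; ring
  have hgeom : ‖∑ i ∈ range W, z ^ i‖ ≤ q := by
    have : ∑ i ∈ range W, z ^ i = ∑ i ∈ range (W % q), z ^ i := by
      rw [geom_sum_eq hz1, geom_sum_eq hz1]
      congr 2
      conv_lhs => rw [← Nat.mod_add_div W q, pow_add, pow_mul, hzq, one_pow, mul_one]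
    rw [this]
    refine (norm_sum_le _ _).trans ?_
    simp only [norm_pow, z, norm_ee, one_pow, sum_const, card_range, nsmul_eq_mul, mul_one]
    exact_mod_cast (Nat.mod_lt W hq).le
  rw [hsum, norm_mul, norm_ee, one_mul]
  exact hgeom

end

end Vale.Agent.P042.Upper
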