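import Vale.Agent.P042.Upper.Increment.Fourier

/-!
Densities of classes in intervals, and the correlation of a set without a given difference.
-/

open Finset

namespace Vale.Agent.P042.Upper

noncomputable section

/-- Density on progressions of step `L` bounds the density of a class modulo a divisor of `L` in
an interval. -/
theorem class_le_of_progressions (A : Finset ℤ) {r s ℓ : ℕ} (hr : 0 < r) (hs : 0 < s) {a : ℝ}
    (ha : 0 ≤ a)
    (H : ∀ x : ℤ, (((Icc 1 ((ℓ / (r * s) + 1 : ℕ) : ℤ)).filter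
      fun y => x + ((r * s : ℕ) : ℤ) * y ∈ A).card : ℝ) ≤ a * ((ℓ / (r * s) + 1 : ℕ) : ℝ))
    (x u : ℤ) :
    ((inClass (A ∩ Ioc u (u + ℓ)) r x).card : ℝ) ≤ a * ((ℓ : ℝ) / r + s) := by
  set L : ℕ := r * s with hLdef
  have hL : 0 < L := Nat.mul_pos hr hs
  have hLz : (0 : ℤ) < L := by exact_mod_cast hL
  set n' : ℕ := ℓ / L + 1 with hn'
  set start : ℕ → ℤ := fun j => u - (u - (x + (r : ℤ) * j)) % (L : ℤ) with hstart
  set P : ℕ → Finset ℤ := fun j =>
    ((Icc 1 (n' : ℤ)).filter fun y => start j + (L : ℤ) * y ∈ A).image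
      (fun y => start j + (L : ℤ) * y) with hP
  have hsub : inClass (A ∩ Ioc u (u + ℓ)) r x ⊆ (range s).biUnion P := by
    intro n hn
    simp only [inClass, mem_filter, mem_inter, mem_Ioc] at hn
    obtain ⟨⟨hnA, hnu⟩, i, hi⟩ := hn
    set j : ℕ := (i % (s : ℤ)).toNat with hj
    have hsz : (0 : ℤ) < s := by exact_mod_cast hs
    have hj' : (j : ℤ) = i % s := Int.toNat_of_nonneg (Int.emod_nonneg _ hsz.ne')
    have hjs : j < s := by
      have := Int.emod_lt_of_pos i hsz
      omega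
    have hdvd : (L : ℤ) ∣ n - start j := by
      have h1 : (L : ℤ) ∣ n - (x + (r : ℤ) * j) := by
        refine ⟨i / s, ?_⟩
        have := Int.emod_add_mul_ediv i (s : ℤ)
        rw [hj', hLdef]
        push_cast
        linear_combination hi + (-(r : ℤ)) * this
      have h2 : (L : ℤ) ∣ (x + (r : ℤ) * j) - start j := by
        refine ⟨-((u - (x + (r : ℤ) * j)) / (L : ℤ)), ?_⟩
        have := Int.emod_add_mul_ediv (u - (x + (r : ℤ) * j)) (L : ℤ)
        simp only [hstart]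
        linear_combination this
      simpa using dvd_add h1 h2
    obtain ⟨y, hy⟩ := hdvd
    have hs1 := Int.emod_lt_of_pos (u - (x + (r : ℤ) * j)) hLz
    have hs2 := Int.emod_nonneg (u - (x + (r : ℤ) * j)) hLz.ne'
    have hy1 : 1 ≤ y := by
      by_contra h
      have : (L : ℤ) * y ≤ 0 := mul_nonpos_of_nonneg_of_nonpos hLz.le (by omega)
      simp only [hstart] at hy
      omega
    have hy2 : y ≤ n' := by
      by_contra h
      have h3 : (L : ℤ) * (n' + 1) ≤ L * y := mul_le_mul_of_nonneg_left (by omega) hLz.le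
      have h4 : ℓ < L * n' := by
        rw [hn', Nat.mul_add_one]
        have := Nat.div_add_mod ℓ L
        have := Nat.mod_lt ℓ hL
        omega
      have h5 : (ℓ : ℤ) < (L : ℤ) * n' := by exact_mod_cast h4
      simp only [hstart] at hy
      nlinarith
    refine mem_biUnion.2 ⟨j, mem_range.2 hjs, mem_image.2 ⟨y, mem_filter.2 ⟨mem_Icc.2 ⟨hy1, hy2⟩,
      ?_⟩, by linarith⟩⟩
    rwa [← hy, add_sub_cancel]
  have hb : ∀ j ∈ range s, ((P j).card : ℝ) ≤ a * (n' : ℝ) := fun j _ =>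
    le_trans (Nat.cast_le.2 card_image_le) (H (start j))
  have hn'le : (n' : ℝ) ≤ (ℓ : ℝ) / L + 1 := by
    rw [hn', Nat.cast_add, Nat.cast_one]
    have := Nat.cast_div_le (α := ℝ) (m := ℓ) (n := L)
    linarith
  calc ((inClass (A ∩ Ioc u (u + ℓ)) r x).card : ℝ) ≤ (((range s).biUnion P).card : ℝ) :=
        Nat.cast_le.2 (card_le_card hsub)
    _ ≤ ∑ j ∈ range s, ((P j).card : ℝ) := by exact_mod_cast card_biUnion_le
    _ ≤ ∑ j ∈ range s, a * (n' : ℝ) := sum_le_sum hb
    _ = s * (a * n') := by simp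
    _ ≤ s * (a * ((ℓ : ℝ) / L + 1)) := by gcongr
    _ = _ := by
      rw [hLdef]
      push_cast
      field_simp

/-- The balanced function of `A` on `[1, N]`. -/
def bal (A : Finset ℤ) (α : ℝ) (n : ℤ) : ℝ := (if n ∈ A then (1 : ℝ) else 0) - α

theorem sum_indicator (s A : Finset ℤ) :
    ∑ n ∈ s, (if n ∈ A then (1 : ℝ) else 0) = ((A ∩ s).card : ℝ) := by
  rw [sum_boole, filter_mem_eq_inter, inter_comm]

theorem sum_bal_sq (A : Finset ℤ) {N : ℕ} (hA : A ⊆ Icc 1 (N : ℤ)) (α : ℝ) :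
    ∑ n ∈ Icc 1 (N : ℤ), bal A α n ^ 2 = A.card * (1 - 2 * α) + α ^ 2 * N := by
  have : ∀ n, bal A α n ^ 2 = (if n ∈ A then (1 : ℝ) else 0) * (1 - 2 * α) + α ^ 2 := fun n => by
    unfold bal; split_ifs <;> ring
  simp only [this, sum_add_distrib, ← sum_mul, sum_indicator, inter_eq_left.2 hA, sum_const,
    Int.card_Icc, nsmul_eq_mul]
  simp [mul_comm]

/-- The correlation at a missing difference. -/
theorem corr_le (A : Finset ℤ) {N : ℕ} (hA : A ⊆ Icc 1 (N : ℤ)) {α e : ℝ} (hα0 : 0 ≤ α)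
    (hα : (A.card : ℝ) = α * N) {v : ℕ} (hvN : v ≤ N) (hav : ∀ a ∈ A, a + (v : ℤ) ∉ A)
    (h1 : ((A ∩ Icc 1 (v : ℤ)).card : ℝ) ≤ e)
    (h2 : ((A ∩ Icc ((N : ℤ) - v + 1) N).card : ℝ) ≤ e) :
    ∑ y ∈ Icc 1 ((N : ℤ) - v), bal A α (y + v) * bal A α y ≤
      -(α ^ 2 * N) + 2 * α * e := by
  have hexp : ∀ y, bal A α (y + v) * bal A α y =
      -α * (if y + v ∈ A then (1 : ℝ) else 0) - α * (if y ∈ A then (1 : ℝ) else 0) + α ^ 2 := by
    intro y
    unfold bal
    split_ifs with p q <;> first | (exact absurd p (hav y q)) | ring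
  simp only [hexp, sum_add_distrib, sum_sub_distrib, ← mul_sum, sum_indicator, sum_const,
    Int.card_Icc, nsmul_eq_mul]
  have e1 : ∑ y ∈ Icc 1 ((N : ℤ) - v), (if y + v ∈ A then (1 : ℝ) else 0) =
      ((A ∩ Icc ((v : ℤ) + 1) N).card : ℝ) := by
    rw [← sum_indicator]
    refine sum_nbij' (fun y => y + v) (fun y => y - v) ?_ ?_ ?_ ?_ ?_ <;>
      intro y hy <;> simp only [mem_Icc] at * <;> omega
  rw [e1]
  have c1 : ((A ∩ Icc ((v : ℤ) + 1) N).card : ℝ) + ((A ∩ Icc 1 (v : ℤ)).card : ℝ) = A.card := by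
    rw [← Nat.cast_add, ← card_union_of_disjoint]
    · congr 2
      ext n
      simp only [mem_union, mem_inter, mem_Icc]
      refine ⟨fun h => h.elim And.left And.left, fun h => ?_⟩
      have := mem_Icc.1 (hA h)
      rcases le_or_gt n v with h' | h'
      · exact Or.inr ⟨h, this.1, h'⟩
      · exact Or.inl ⟨h, by omega, this.2⟩
    · rw [disjoint_left]
      intro n h h'
      simp only [mem_inter, mem_Icc] at h h'
      omega
  have c2 : ((A ∩ Icc 1 ((N : ℤ) - v)).card : ℝ) +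
      ((A ∩ Icc ((N : ℤ) - v + 1) N).card : ℝ) = A.card := by
    rw [← Nat.cast_add, ← card_union_of_disjoint]
    · congr 2
      ext n
      simp only [mem_union, mem_inter, mem_Icc]
      refine ⟨fun h => h.elim And.left And.left, fun h => ?_⟩
      have := mem_Icc.1 (hA h)
      rcases le_or_gt n ((N : ℤ) - v) with h' | h'
      · exact Or.inl ⟨h, this.1, h'⟩
      · exact Or.inr ⟨h, by omega, this.2⟩
    · rw [disjoint_left]
      intro n h h'
      simp only [mem_inter, mem_Icc] at h h'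
      omega
  have hcnt : ((((N : ℤ) - v + 1 - 1).toNat : ℕ) : ℝ) = (N : ℝ) - v := by
    rw [show ((N : ℤ) - v + 1 - 1).toNat = N - v by omega, Nat.cast_sub hvN]
  rw [hcnt]
  have hv0 : (0 : ℝ) ≤ α ^ 2 * v := by positivity
  nlinarith [mul_le_mul_of_nonneg_left h1 hα0, mul_le_mul_of_nonneg_left h2 hα0]

/-- Every element of `A` lies in at most `W` windows, and in exactly `W` away from the ends. -/
theorem sum_windows (A : Finset ℤ) {N W : ℕ} (hA : A ⊆ Icc 1 (N : ℤ)) :
    (∑ v ∈ Ico (0 : ℤ) ((N : ℤ) - W), ((A ∩ Ioc v (v + W)).card : ℝ)) ≤ W * A.card ∧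
      (W : ℝ) * ((A.card : ℝ) - 2 * W) ≤
        ∑ v ∈ Ico (0 : ℤ) ((N : ℤ) - W), ((A ∩ Ioc v (v + W)).card : ℝ) := by
  set J := Ico (0 : ℤ) ((N : ℤ) - W)
  have hswap : ∑ v ∈ J, ((A ∩ Ioc v (v + W)).card : ℝ) =
      ∑ a ∈ A, ((J.filter fun v => v < a ∧ a ≤ v + (W : ℤ)).card : ℝ) := by
    simp only [← sum_boole]
    rw [sum_comm]
    refine sum_congr rfl fun v _ => ?_
    rw [sum_boole]
    congr 2
    ext a
    simp
  have hsub : ∀ a : ℤ, (J.filter fun v => v < a ∧ a ≤ v + (W : ℤ)) ⊆ Ico (a - W) a := by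
    intro a v hv
    simp only [mem_filter, mem_Ico] at hv ⊢
    omega
  have hle : ∀ a : ℤ, (J.filter fun v => v < a ∧ a ≤ v + (W : ℤ)).card ≤ W := fun a => by
    refine (card_le_card (hsub a)).trans ?_
    simp
  rw [hswap]
  constructor
  · calc _ ≤ ∑ a ∈ A, (W : ℝ) := sum_le_sum fun a _ => by exact_mod_cast hle a
      _ = _ := by simp [mul_comm]
  · set B := A.filter fun a => (W : ℤ) ≤ a ∧ a ≤ (N : ℤ) - W
    have hB : ∀ a ∈ B, (J.filter fun v => v < a ∧ a ≤ v + (W : ℤ)).card = W := by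
      intro a ha
      simp only [B, mem_filter] at ha
      rw [show J.filter (fun v => v < a ∧ a ≤ v + (W : ℤ)) = Ico (a - W) a from ?_]
      · simp
      ext v
      simp only [J, mem_filter, mem_Ico]
      omega
    have hBA : (A.card : ℝ) - 2 * W ≤ B.card := by
      have h1 : A ⊆ B ∪ (Ico (1 : ℤ) W ∪ Ioc ((N : ℤ) - W) N) := by
        intro a ha
        have := mem_Icc.1 (hA ha)
        simp only [B, mem_union, mem_filter, mem_Ico, mem_Ioc]
        by_cases h : (W : ℤ) ≤ a ∧ a ≤ (N : ℤ) - W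
        · exact Or.inl ⟨ha, h⟩
        · right; omega
      have h2 := (card_le_card h1).trans ((card_union_le _ _).trans
        (add_le_add le_rfl (card_union_le _ _)))
      simp only [Int.card_Ico, Int.card_Ioc] at h2
      have h3 : A.card ≤ B.card + 2 * W := by omega
      have : (A.card : ℝ) ≤ B.card + 2 * W := by exact_mod_cast h3
      linarith
    calc (W : ℝ) * ((A.card : ℝ) - 2 * W) ≤ W * B.card := by gcongr
      _ = ∑ a ∈ B, ((J.filter fun v => v < a ∧ a ≤ v + (W : ℤ)).card : ℝ) := by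
        rw [sum_congr rfl fun a ha => by rw [hB a ha]]
        simp [mul_comm]
      _ ≤ _ := sum_le_sum_of_subset_of_nonneg (filter_subset _ _) fun a _ _ => Nat.cast_nonneg _

end

end Vale.Agent.P042.Upper
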